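import Vale.Agent.P011.E6W.H183.KRho
import Vale.Agent.P011.E6W.H541.Dsc
import Vale.Agent.P011.E6H.XDefs

/-!
Block E6W: outer groups of type `E₆` with nontrivial Tits class, for an octonion algebra which
remains a division algebra over the quadratic extension. The interface between the blocks. The
hypotheses on the data are collected in the structure `H183.WH`.
-/

open NumberField Matrix

namespace Vale.Agent.P011.E6W

open Vale.Agent.P011.MPQ hiding mat
open Vale.Agent.P011.D4 Vale.Agent.P011.D4.Oct Vale.Agent.P011.E6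
open Vale.Agent.P011.E6O (GO Res InD InD0 um)
open Vale.Agent.P011.E6I (MQ toMQ InVs)
open Vale.Agent.P011.E6H (nm qnm)
open Vale.Agent.P011.E6W.H183 (adjM)

variable {k E : Type} [Field k] [Field E] [Algebra k E]

/-- The matrix norm at an embedding. -/
noncomputable def mnm {a b : kˣ} (w : E →+* ℂ) (m : MQ E a b) : ℝ := ∑ i, ∑ j, qnm w (m i j)

/-- The maps `n` and `h` are close at all the archimedean places. -/
def NearL {a b c : kˣ} (t : ℝ) (n h : AlbL E a b c ≃ₗ[E] AlbL E a b c) : Prop :=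
  ∀ (w : E →+* ℂ) (x : AlbL E a b c), nm w (h x - n x) ≤ t * nm w x

/-- The matrices `z₀` and `z` are close at all the archimedean places. -/
def NearM {a b : kˣ} (t : ℝ) (z₀ z : MQ E a b) : Prop := ∀ w : E →+* ℂ, mnm w (z - z₀) ≤ t

/-- The vectors `v₀` and `v` are close at all the archimedean places. -/
def NearV {a b c : kˣ} (t : ℝ) (v₀ v : AlbL E a b c) : Prop := ∀ w : E →+* ℂ, nm w (v - v₀) ≤ t

/-- The standard symmetric element of the cyclic algebra. It has trace zero and generates a cubic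
extension of `k` with one real and one complex place above a real place, given by `w₀`, which splits
in `K` and where the octonion algebra is definite. -/
structure Base (ρ σ : E ≃ₐ[k] E) (lam : Eˣ) (g : Fin 3 → Eˣ) (a b c : kˣ)
    (z₀ v₀ : Matrix (Fin 3) (Fin 3) E) (q₁ q₀ : k) (w₀ : E →+* ℝ) : Prop where
  /-- the element belongs to the cyclic algebra -/
  inD : InD0 ρ lam z₀
  /-- the element is symmetric -/
  sym : ∀ i j, σ (z₀ j i) * g j = g i * z₀ i j
  /-- the trace is zero -/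
  tr : z₀.trace = 0
  /-- the cubic relation -/
  cub : z₀ ^ 3 = algebraMap k E q₁ • z₀ + algebraMap k E q₀ • 1
  /-- the standard frame vector -/
  v0t : v₀ᵀ = v₀
  /-- the standard frame vector -/
  com : z₀ * v₀ = v₀ * z₀ᵀ
  /-- the standard frame vector is invertible -/
  det : v₀.det ≠ 0
  /-- the first basis vector is cyclic -/
  kry : (Matrix.of fun i j : Fin 3 => (z₀ ^ (j : ℕ)) i 0).det ≠ 0
  /-- the octonion algebra is definite at the place -/
  dfn : w₀ (algebraMap k E a) < 0 ∧ w₀ (algebraMap k E b) < 0 ∧ w₀ (algebraMap k E c) < 0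
  /-- the discriminant is negative at the place -/
  neg : w₀ (algebraMap k E (dsc 0 q₁ q₀)) < 0

/-- The element `a` is negative exactly at the real places where the octonion algebra is definite,
and it is a square at the primes in `T`. -/
structure Good [NumberField k] (T : Set (IsDedekindDomain.HeightOneSpectrum (𝓞 k))) (a b c : kˣ) :
    Prop where
  /-- the real places -/
  real : ∀ φ : k →+* ℝ, φ a < 0 → Dfn φ a b c
  /-- the finite places -/
  fin : ∀ v ∈ T, a ∈ Arith.LS (v.valuation k)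

/-- (A) The special unitary group of `D ⊗ Q` is contained in the finite residual. -/
def SqRes (ρ σ : E ≃ₐ[k] E) (lam : Eˣ) (g : Fin 3 → Eˣ) (a b c : kˣ) : Prop :=
  ∀ m : (MQ E a b)ˣ, InD ρ lam (m : MQ E a b) → adjM σ g (m : MQ E a b) * (m : MQ E a b) = 1 →
    nu (m : MQ E a b) = 1 → ∀ h : AlbL E a b c ≃ₗ[E] AlbL E a b c, (∀ x, h x = Alb.act m 1 x) →
      h ∈ Res ρ σ lam g a b c

/-- A symmetric element `z` of `D ⊗ Q` with a cubic relation over `k`, and a vector `v` of its
frame. -/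
structure Frame (ρ σ : E ≃ₐ[k] E) (lam : Eˣ) (g : Fin 3 → Eˣ) {a b c : kˣ} (z : MQ E a b)
    (v : AlbL E a b c) (p₂ p₁ p₀ : k) : Prop where
  /-- `z` belongs to `D ⊗ Q` -/
  inD : InD ρ lam z
  /-- `z` is symmetric -/
  sym : adjM σ g z = z
  /-- the cubic relation -/
  cub : z ^ 3 = algebraMap k E p₂ • z ^ 2 + algebraMap k E p₁ • z + algebraMap k E p₀ • 1
  /-- `v` is hermitian over the quaternions -/
  inV : InVs v
  /-- `v` is invertible -/
  ne : Alb.cub v ≠ 0
  /-- `v` belongs to the frame -/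
  com : z * Alb.mat v = Alb.mat v * zᴴ

/-- The linear map fixes the frame `E[z] v`. -/
def FixFr {a b c : kˣ} (z : MQ E a b) (v : AlbL E a b c) (h : AlbL E a b c ≃ₗ[E] AlbL E a b c) :
    Prop :=
  ∀ x : AlbL E a b c, InVs x →
    (∃ t₀ t₁ t₂ : E, Alb.mat x = (t₀ • (1 : MQ E a b) + t₁ • z + t₂ • z ^ 2) * Alb.mat v) → h x = x

/-- (B) The pointwise stabilizers of the frames close to the standard frame are contained in the
finite residual. -/
def FrRes (ρ σ : E ≃ₐ[k] E) (lam : Eˣ) (g : Fin 3 → Eˣ) (a b c : kˣ)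
    (z₀ v₀ : Matrix (Fin 3) (Fin 3) E) : Prop :=
  ∃ t : ℝ, 0 < t ∧ ∀ (z : MQ E a b) (v : AlbL E a b c) (p₂ p₁ p₀ : k),
    Frame ρ σ lam g z v p₂ p₁ p₀ → NearM t (toMQ z₀) z → NearV t (Alb.ofF v₀) v →
    ∀ h ∈ GO ρ σ lam g a b c, FixFr z v h → h ∈ Res ρ σ lam g a b c

/-- (C) The finite residual is open at the archimedean places. -/
def OpenRes (ρ σ : E ≃ₐ[k] E) (lam : Eˣ) (g : Fin 3 → Eˣ) (a b c : kˣ) : Prop :=
  ∃ t : ℝ, 0 < t ∧ ∀ h ∈ GO ρ σ lam g a b c, NearL t 1 h → h ∈ Res ρ σ lam g a b c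

/-- The certificate for (B1): a frame with field of degree three, not cyclic, and a pure element
`i₁` of its quaternion algebra whose square is positive above all the real places where the
octonion algebra is not definite. -/
structure Cert (ρ σ : E ≃ₐ[k] E) (lam : Eˣ) (g : Fin 3 → Eˣ) {a b c : kˣ}
    (z i₁ : MQ E a b) (v : AlbL E a b c) (p₂ p₁ p₀ A₀ A₁ A₂ : k) : Prop
    extends Frame ρ σ lam g z v p₂ p₁ p₀ where
  /-- the elements `1`, `z`, `z²` are independent -/
  ind : ∀ t₀ t₁ t₂ : E, t₀ • (1 : MQ E a b) + t₁ • z + t₂ • z ^ 2 = 0 → t₀ = 0 ∧ t₁ = 0 ∧ t₂ = 0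
  /-- the discriminant is not a square in `K` -/
  dsc : ∀ x : E, ρ x = x → x ^ 2 ≠ algebraMap k E (dsc p₂ p₁ p₀)
  /-- `i₁` belongs to `D ⊗ Q` -/
  inD' : InD ρ lam i₁
  /-- `i₁` commutes with `z` -/
  com' : i₁ * z = z * i₁
  /-- `i₁` is antisymmetric -/
  anti : adjM σ g i₁ = -i₁
  /-- `i₁` is pure -/
  pure : i₁ * Alb.mat v = -(Alb.mat v * i₁ᴴ)
  /-- the square of `i₁` -/
  sq : i₁ ^ 2 = algebraMap k E A₀ • (1 : MQ E a b) + algebraMap k E A₁ • z +
    algebraMap k E A₂ • z ^ 2
  /-- the square of `i₁` is positive at the real roots, at the real places where the octonion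
  algebra is not definite -/
  pos : ∀ τ : k →+* ℝ, ¬ Dfn τ a b c → ∀ x : ℝ, x ^ 3 = τ p₂ * x ^ 2 + τ p₁ * x + τ p₀ →
    0 < τ A₀ + τ A₁ * x + τ A₂ * x ^ 2

end Vale.Agent.P011.E6W
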